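import Vale.Agent.P167.H558.Stop2

/-!
# P167, SLE_6, block E3/S5: the exploration of a cluster is a stopping set

`D` : finite set of (random) edges, `lk i u v` : the edge `i` leads from `u` to `v`, `fz u v` : frozen
links (always present), `col i b` : the edge `i` in the state `b` can be used.  `Cl w` is the set of
the vertices which can be reached from `B`, `Rv w` the edges of `D` which leave `Cl w`:
`Rv w` is a stopping set which reveals `Cl w` (`stop_Rv`, `past_Cl`).

With `lk` = dual adjacency and `col i b = (b = false)`, `Rv w` is the set explored by the dual cluster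
of an arc; all open edges of the extremal (nearest to that arc) open crossing are in `Rv w`
(`Cl_frozen`: the configuration in which all the edges off `Rv w` are put in the state `c` which is
useless for `lk` has the same cluster... see `Cl_glue`), and everything off `Rv w` is fresh.
-/

namespace Vale.Agent.P167.H192

open Vale.Agent.P167.H558

set_option linter.unusedSectionVars false

variable {ι β V : Type*} [Countable ι]

/-- links of the configuration `w` -/
def stp (D : Finset ι) (lk : ι → V → V → Prop) (fz : V → V → Prop) (col : ι → β → Prop)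
    (w : ι → β) (u v : V) : Prop := fz u v ∨ ∃ i ∈ D, col i (w i) ∧ lk i u v

/-- the vertices which are reached from `B` -/
def Cl (D : Finset ι) (lk : ι → V → V → Prop) (fz : V → V → Prop) (col : ι → β → Prop)
    (B : Set V) (w : ι → β) : Set V := {v | ∃ b ∈ B, Relation.ReflTransGen (stp D lk fz col w) b v}

open scoped Classical in
/-- the edges of `D` which leave the cluster of `B` -/
noncomputable def Rv (D : Finset ι) (lk : ι → V → V → Prop) (fz : V → V → Prop)
    (col : ι → β → Prop) (B : Set V) (w : ι → β) : Finset ι :=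
  D.filter fun i => ∃ u ∈ Cl D lk fz col B w, ∃ v, lk i u v

variable {D : Finset ι} {lk : ι → V → V → Prop} {fz : V → V → Prop} {col : ι → β → Prop}
  {B : Set V}

theorem mem_Rv {w : ι → β} {i : ι} :
    i ∈ Rv D lk fz col B w ↔ i ∈ D ∧ ∃ u ∈ Cl D lk fz col B w, ∃ v, lk i u v := by
  classical
  simp [Rv]

theorem Rv_subset (w : ι → β) : Rv D lk fz col B w ⊆ D := by
  classical
  exact Finset.filter_subset _ _

theorem Cl_base {w : ι → β} {b : V} (hb : b ∈ B) : b ∈ Cl D lk fz col B w :=
  ⟨b, hb, Relation.ReflTransGen.refl⟩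

theorem Cl_step {w : ι → β} {u v : V} (hu : u ∈ Cl D lk fz col B w) (h : stp D lk fz col w u v) :
    v ∈ Cl D lk fz col B w := by
  obtain ⟨b, hb, h1⟩ := hu
  exact ⟨b, hb, h1.tail h⟩

/-- induction principle -/
theorem Cl_induction {w : ι → β} {P : V → Prop} (hB : ∀ b ∈ B, P b)
    (hs : ∀ u v, u ∈ Cl D lk fz col B w → P u → stp D lk fz col w u v → P v) {v : V}
    (hv : v ∈ Cl D lk fz col B w) : P v := by
  obtain ⟨b, hb, h1⟩ := hv
  induction h1 with
  | refl => exact hB b hb
  | tail h2 h3 ih => exact hs _ _ ⟨b, hb, h2⟩ ih h3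

/-- the cluster depends only on the revealed edges; more generally, the set of the random edges may
change off the revealed set -/
theorem Cl_congr {D' : Finset ι} {w w' : ι → β}
    (h : ∀ i, (∃ u ∈ Cl D lk fz col B w, ∃ v, lk i u v) →
      ((i ∈ D' ∧ col i (w' i)) ↔ (i ∈ D ∧ col i (w i)))) :
    Cl D' lk fz col B w' = Cl D lk fz col B w := by
  have hstp : ∀ u ∈ Cl D lk fz col B w, ∀ v, stp D' lk fz col w' u v ↔ stp D lk fz col w u v := by
    intro u hu v
    unfold stp
    constructor
    · rintro (h1 | ⟨i, hi, hc, hl⟩)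
      · exact Or.inl h1
      · obtain ⟨h2, h3⟩ := (h i ⟨u, hu, v, hl⟩).1 ⟨hi, hc⟩
        exact Or.inr ⟨i, h2, h3, hl⟩
    · rintro (h1 | ⟨i, hi, hc, hl⟩)
      · exact Or.inl h1
      · obtain ⟨h2, h3⟩ := (h i ⟨u, hu, v, hl⟩).2 ⟨hi, hc⟩
        exact Or.inr ⟨i, h2, h3, hl⟩
  refine Set.Subset.antisymm ?_ ?_
  · intro v hv
    refine Cl_induction (P := fun v => v ∈ Cl D lk fz col B w) (fun b hb => Cl_base hb) ?_ hv
    intro u v _ hu huv
    exact Cl_step hu ((hstp u hu v).1 huv)
  · intro v hv
    refine Cl_induction (P := fun v => v ∈ Cl D' lk fz col B w') (fun b hb => Cl_base hb) ?_ hv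
    intro u v hu hu' huv
    exact Cl_step hu' ((hstp u hu v).2 huv)

theorem past_Cl : Past (Rv D lk fz col B) (Cl D lk fz col B) := by
  intro w w' h
  refine Cl_congr fun i hi => ?_
  constructor
  · rintro ⟨h1, h2⟩
    exact ⟨h1, by rw [← h i (mem_Rv.2 ⟨h1, hi⟩)]; exact h2⟩
  · rintro ⟨h1, h2⟩
    exact ⟨h1, by rw [h i (mem_Rv.2 ⟨h1, hi⟩)]; exact h2⟩

/-- **the set explored by the cluster of `B` is a stopping set** -/
theorem stop_Rv : StopSet (Rv D lk fz col B) := by
  intro w w' h
  ext i
  rw [mem_Rv, mem_Rv, past_Cl w w' h]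

/-- the cluster of `B` does not change when the edges off `Rv w` get any other states -/
theorem Cl_glue (w w' : ι → β) :
    Cl D lk fz col B (glue (↑(Rv D lk fz col B w)) w w') = Cl D lk fz col B w :=
  past_Cl.glue w w'

/-- the cluster of `B` does not change when the edges off `Rv w` are removed -/
theorem Cl_restrict (w : ι → β) :
    Cl (Rv D lk fz col B w) lk fz col B w = Cl D lk fz col B w := by
  refine Cl_congr fun i hi => ?_
  constructor
  · rintro ⟨h1, h2⟩
    exact ⟨Rv_subset w h1, h2⟩
  · rintro ⟨h1, h2⟩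
    exact ⟨mem_Rv.2 ⟨h1, hi⟩, h2⟩

/-- an edge which leaves the cluster and can be used leads into the cluster -/
theorem Cl_closed {w : ι → β} {i : ι} (hi : i ∈ D) {u v : V} (hu : u ∈ Cl D lk fz col B w)
    (hl : lk i u v) (hv : v ∉ Cl D lk fz col B w) : ¬ col i (w i) := fun hc =>
  hv (Cl_step hu (Or.inr ⟨i, hi, hc, hl⟩))

/-! ### operations on stopping sets -/

section ops

open scoped Classical in
theorem StopSet.union {R R' : (ι → β) → Finset ι} (hR : StopSet R) (hR' : StopSet R') :
    StopSet fun w => R w ∪ R' w := by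
  intro w w' h
  have h1 := hR w w' fun i hi => h i (Finset.mem_union_left _ hi)
  have h2 := hR' w w' fun i hi => h i (Finset.mem_union_right _ hi)
  show R w' ∪ R' w' = R w ∪ R' w
  rw [h1, h2]

open scoped Classical in
/-- exploration in two steps: the second exploration may depend on the result `Y` of the first
one -/
theorem StopSet.bind {γ : Type*} {R : (ι → β) → Finset ι} (hR : StopSet R) {Y : (ι → β) → γ}
    (hY : Past R Y) {R' : γ → (ι → β) → Finset ι} (hR' : ∀ c, StopSet (R' c)) :
    StopSet fun w => R w ∪ R' (Y w) w := by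
  intro w w' h
  have h1 := hR w w' fun i hi => h i (Finset.mem_union_left _ hi)
  have h2 := hY w w' fun i hi => h i (Finset.mem_union_left _ hi)
  have h3 := hR' (Y w) w w' fun i hi => h i (Finset.mem_union_right _ hi)
  show R w' ∪ R' (Y w') w' = R w ∪ R' (Y w) w
  rw [h1, h2, h3]

open scoped Classical in
theorem Past.bind {γ δ : Type*} {R : (ι → β) → Finset ι} {Y : (ι → β) → γ}
    (hY : Past R Y) {R' : γ → (ι → β) → Finset ι} {Z : γ → (ι → β) → δ}
    (hZ : ∀ c, Past (R' c) (Z c)) :
    Past (fun w => R w ∪ R' (Y w) w) fun w => Z (Y w) w := by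
  intro w w' h
  have h2 := hY w w' fun i hi => h i (Finset.mem_union_left _ hi)
  have h3 := hZ (Y w) w w' fun i hi => h i (Finset.mem_union_right _ hi)
  show Z (Y w') w' = Z (Y w) w
  rw [h2, h3]

/-- a stopping set for configurations of which only a part is random -/
theorem StopSet.frozen {R : (ι → β) → Finset ι} (hR : StopSet R) (K : Set ι) (w₀ : ι → β)
    [DecidableEq ι] [DecidablePred (· ∈ K)] :
    StopSet fun w => (R (fun i => if i ∈ K then w₀ i else w i)).filter (· ∉ K) := by
  intro w w' h
  have h1 := hR (fun i => if i ∈ K then w₀ i else w i) (fun i => if i ∈ K then w₀ i else w' i)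
    fun i hi => by
      by_cases hK : i ∈ K
      · simp only [if_pos hK]
      · simp only [if_neg hK]
        exact h i (Finset.mem_filter.2 ⟨hi, hK⟩)
  show (R (fun i => if i ∈ K then w₀ i else w' i)).filter (· ∉ K) = _
  rw [h1]

end ops

end Vale.Agent.P167.H192
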