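import Vale.Agent.P167.H192.Dict
import Vale.Agent.P167.H192.Clus

/-!
# P167, SLE_6, block DICT, part 2: connections, chains and laws

* `adj_iff_PStep`, `reachable_iff`, `crossed_iff`: open paths.
* `fStep_iff`: dual paths of faces.
* `mean_eq`: `mean S F = ∫ F (As S ω) dμ`, `As S ω` = the edges of `S` whose squares are open.
-/

namespace Vale.Agent.P167.H192

open Vale.Agent.P167.E6 Vale.Agent.P145.FB Vale.Agent.P167.H558
open MeasureTheory Relation

/-! ### steps -/

theorem sq_dir (v : ℤ × ℤ) (r : Fin 4) : sq s(v, v + dir r) =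
    (min (ro v).1 (ro (v + dir r)).1, min (ro v).2 (ro (v + dir r)).2) := rfl

theorem ro_dir (v : ℤ × ℤ) (r : Fin 4) :
    ((ro (v + dir r)).1 = (ro v).1 + 1 ∨ (ro (v + dir r)).1 = (ro v).1 - 1) ∧
      ((ro (v + dir r)).2 = (ro v).2 + 1 ∨ (ro (v + dir r)).2 = (ro v).2 - 1) := by
  rcases dir_cases r with h | h | h | h <;> rw [h] <;> simp only [ro, Prod.fst_add, Prod.snd_add] <;>
    omega

theorem exists_dir {u v : ℤ × ℤ} (h1 : (ro v).1 = (ro u).1 + 1 ∨ (ro v).1 = (ro u).1 - 1)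
    (h2 : (ro v).2 = (ro u).2 + 1 ∨ (ro v).2 = (ro u).2 - 1) : ∃ r, v = u + dir r := by
  obtain ⟨a, b⟩ := u
  obtain ⟨c, d⟩ := v
  simp only [ro] at h1 h2
  rcases h1 with h1 | h1 <;> rcases h2 with h2 | h2
  · refine ⟨0, ?_⟩
    simp only [dir]; ext <;> simp <;> omega
  · refine ⟨3, ?_⟩
    simp only [dir]; ext <;> simp <;> omega
  · refine ⟨1, ?_⟩
    simp only [dir]; ext <;> simp <;> omega
  · refine ⟨2, ?_⟩
    simp only [dir]; ext <;> simp <;> omega

/-- steps along open edges -/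
theorem PStep_iff {O : Set (Sym2 (ℤ × ℤ))} {u v : ℤ × ℤ} :
    PStep (op (cfg O)) (ro u) (ro v) ↔ (∃ r, v = u + dir r) ∧ s(u, v) ∈ O := by
  constructor
  · rintro ⟨h1, h2, h3⟩
    obtain ⟨r, rfl⟩ := exists_dir h1 h2
    refine ⟨⟨r, rfl⟩, ?_⟩
    rw [mem_op_cfg] at h3
    have h4 := ed_sq (e := s(u, u + dir r)) ⟨u, r, rfl⟩
    rw [sq_dir] at h4
    rwa [h4] at h3
  · rintro ⟨⟨r, rfl⟩, h⟩
    refine ⟨(ro_dir u r).1, (ro_dir u r).2, ?_⟩
    rw [mem_op_cfg]
    have h4 := ed_sq (e := s(u, u + dir r)) ⟨u, r, rfl⟩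
    rw [sq_dir] at h4
    rwa [h4]

theorem even_of_PStep {F : Set (ℤ × ℤ)} {s t : ℤ × ℤ} (h : PStep F s t)
    (hs : Even (s.1 + s.2)) : Even (t.1 + t.2) := by
  obtain ⟨h1, h2, -⟩ := h
  rw [Int.even_iff] at *
  omega

theorem adj_iff_PStep {O : Set (Sym2 (ℤ × ℤ))} (hO : ∀ e ∈ O, IsEdge e) {u v : ℤ × ℤ} :
    (SimpleGraph.fromEdgeSet O).Adj u v ↔ PStep (op (cfg O)) (ro u) (ro v) := by
  rw [SimpleGraph.fromEdgeSet_adj, PStep_iff]
  constructor
  · rintro ⟨h, -⟩
    refine ⟨?_, h⟩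
    obtain ⟨w, r, hw⟩ := hO _ h
    rw [Sym2.eq_iff] at hw
    rcases hw with ⟨rfl, rfl⟩ | ⟨rfl, rfl⟩
    · exact ⟨r, rfl⟩
    · refine exists_dir ?_ ?_
      · have := (ro_dir v r).1
        omega
      · have := (ro_dir v r).2
        omega
  · rintro ⟨⟨r, rfl⟩, h⟩
    refine ⟨h, ?_⟩
    intro hne
    have := (ro_dir u r).1
    rw [← hne] at this
    omega

theorem reachable_iff {O : Set (Sym2 (ℤ × ℤ))} (hO : ∀ e ∈ O, IsEdge e) {u v : ℤ × ℤ} :
    (SimpleGraph.fromEdgeSet O).Reachable u v ↔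
      ReflTransGen (PStep (op (cfg O))) (ro u) (ro v) := by
  rw [SimpleGraph.reachable_iff_reflTransGen]
  constructor
  · intro h
    exact h.lift ro fun a b hab => (adj_iff_PStep hO).1 hab
  · intro h
    have key : ∀ s, ReflTransGen (PStep (op (cfg O))) (ro u) s → Even (s.1 + s.2) ∧
        ∀ w, ro w = s → ReflTransGen (SimpleGraph.fromEdgeSet O).Adj u w := by
      intro s hs
      induction hs with
      | refl => exact ⟨even_ro u, fun w hw => by rw [ro_inj hw]⟩
      | @tail a b ha hab ih =>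
        refine ⟨even_of_PStep hab ih.1, fun w hw => ?_⟩
        refine (ih.2 (ro' a) (ro_ro' ih.1)).tail ((adj_iff_PStep hO).2 ?_)
        rw [ro_ro' ih.1, hw]
        exact hab
    exact (key _ h).2 v rfl

theorem isEdge_edges {S : Finset (ℤ × ℤ)} {e : Sym2 (ℤ × ℤ)} (he : e ∈ edges S) : IsEdge e := by
  classical
  unfold edges at he
  rw [Finset.mem_biUnion] at he
  obtain ⟨f, -, hf⟩ := he
  simp only [Finset.mem_insert, Finset.mem_singleton] at hf
  rcases hf with rfl | rfl | rfl | rfl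
  · exact ⟨f, 0, rfl⟩
  · exact ⟨f, 1, rfl⟩
  · refine ⟨f + (1, 0), 1, ?_⟩
    simp [dir, add_assoc]
  · refine ⟨f + (0, 1), 0, ?_⟩
    simp [dir, add_assoc]

/-- crossings -/
theorem crossed_iff {n : ℕ} (p : ZMod n → ℤ × ℤ) {A : Finset (Sym2 (ℤ × ℤ))}
    (hA : ∀ e ∈ A, IsEdge e) (i j i' j' : ℕ) :
    Crossed p A i j i' j' ↔ ∃ a b : ℕ, i ≤ a ∧ a ≤ j ∧ i' ≤ b ∧ b ≤ j' ∧
      ReflTransGen (PStep (op (cfg (A : Set (Sym2 (ℤ × ℤ)))))) (ro (p a)) (ro (p b)) := by
  unfold Crossed
  refine exists_congr fun a => exists_congr fun b => ?_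
  rw [reachable_iff (fun e he => hA e (Finset.mem_coe.1 he))]

/-! ### dual steps -/

/-- `f` and `g` are the faces on the two sides of an edge which is not in `O` -/
def fStep (O : Set (Sym2 (ℤ × ℤ))) (f g : ℤ × ℤ) : Prop :=
  ∃ v r, face v r = f ∧ face v (r + 1) = g ∧ s(v, v + dir (r + 1)) ∉ O

theorem fStep_iff {O : Set (Sym2 (ℤ × ℤ))} {f g : ℤ × ℤ} :
    PStep (op (cfg O))ᶜ (rf f) (rf g) ↔ fStep O f g := by
  have key : ∀ (v : ℤ × ℤ) (r : Fin 4), PStep Set.univ (rf (face v r)) (rf (face v (r + 1))) ∧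
      (min (rf (face v r)).1 (rf (face v (r + 1))).1, min (rf (face v r)).2
        (rf (face v (r + 1))).2) = sq s(v, v + dir (r + 1)) := by
    rintro ⟨a, b⟩ r
    rw [sq_mk]
    rcases fin4_cases r with rfl | rfl | rfl | rfl
    · have e1 : ((0 : Fin 4) + 1) = 1 := rfl
      rw [e1]
      simp only [face, dir, rf, ro, PStep]
      refine ⟨⟨?_, ?_, trivial⟩, ?_⟩
      · simp; omega
      · simp; omega
      · ext <;> simp <;> omega
    · have e1 : ((1 : Fin 4) + 1) = 2 := rfl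
      rw [e1]
      simp only [face, dir, rf, ro, PStep]
      refine ⟨⟨?_, ?_, trivial⟩, ?_⟩
      · simp; omega
      · simp; omega
      · ext <;> simp <;> omega
    · have e1 : ((2 : Fin 4) + 1) = 3 := rfl
      rw [e1]
      simp only [face, dir, rf, ro, PStep]
      refine ⟨⟨?_, ?_, trivial⟩, ?_⟩
      · simp; omega
      · simp; omega
      · ext <;> simp <;> omega
    · have e1 : ((3 : Fin 4) + 1) = 0 := rfl
      rw [e1]
      simp only [face, dir, rf, ro, PStep]
      refine ⟨⟨?_, ?_, trivial⟩, ?_⟩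
      · simp; omega
      · simp; omega
      · ext <;> simp <;> omega
  constructor
  · rintro ⟨h1, h2, h3⟩
    have h4 : ed (min (rf f).1 (rf g).1, min (rf f).2 (rf g).2) ∉ O := fun h => h3 (mem_op_cfg.2 h)
    have h5 : ∃ v r, face v r = f ∧ face v (r + 1) = g := by
      obtain ⟨a, b⟩ := f
      obtain ⟨c, d⟩ := g
      simp only [rf] at h1 h2
      rcases h1 with h1 | h1 <;> rcases h2 with h2 | h2
      · refine ⟨(a + 1, b + 1), 2, ?_, ?_⟩
        · simp [face]
        · have e1 : ((2 : Fin 4) + 1) = 3 := rfl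
          rw [e1]; simp only [face]; ext <;> simp <;> omega
      · refine ⟨(a + 1, b), 1, ?_, ?_⟩
        · simp [face]
        · have e1 : ((1 : Fin 4) + 1) = 2 := rfl
          rw [e1]; simp only [face]; ext <;> simp <;> omega
      · refine ⟨(a, b + 1), 3, ?_, ?_⟩
        · simp [face]
        · have e1 : ((3 : Fin 4) + 1) = 0 := rfl
          rw [e1]; simp only [face]; ext <;> simp <;> omega
      · refine ⟨(a, b), 0, ?_, ?_⟩
        · simp [face]
        · have e1 : ((0 : Fin 4) + 1) = 1 := rfl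
          rw [e1]; simp only [face]; ext <;> simp <;> omega
    obtain ⟨v, r, rfl, rfl⟩ := h5
    refine ⟨v, r, rfl, rfl, ?_⟩
    rw [(key v r).2, ed_sq ⟨v, r + 1, rfl⟩] at h4
    exact h4
  · rintro ⟨v, r, rfl, rfl, h⟩
    obtain ⟨⟨h1, h2, -⟩, h3⟩ := key v r
    refine ⟨h1, h2, ?_⟩
    rw [h3]
    intro h4
    rw [mem_op_cfg, ed_sq ⟨v, r + 1, rfl⟩] at h4
    exact h h4

/-! ### the chains on the two sides of the path -/

/-- the left site moves along an open edge or stays -/
theorem ls_nx (ω : Cfg) (e : Ed) :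
    (ω (hdv e) = true ∧ PStep (op ω) (ls e) (ls (nx ω e)) ∧ rs (nx ω e) = rs e ∧
      (min (ls e).1 (ls (nx ω e)).1, min (ls e).2 (ls (nx ω e)).2) = hdv e) ∨
    (ω (hdv e) = false ∧ PStep (op ω)ᶜ (rs e) (rs (nx ω e)) ∧ ls (nx ω e) = ls e ∧
      (min (rs e).1 (rs (nx ω e)).1, min (rs e).2 (rs (nx ω e)).2) = hdv e) := by
  obtain ⟨⟨v, r⟩, rfl⟩ := meE.surjective e
  show (ω (hdv (me (v, r))) = true ∧ PStep (op ω) (ls (me (v, r))) (ls (nx ω (me (v, r)))) ∧ _ ∧ _) ∨
    (ω (hdv (me (v, r))) = false ∧ PStep (op ω)ᶜ (rs (me (v, r))) (rs (nx ω (me (v, r)))) ∧ _ ∧ _)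
  cases h : ω (hdv (me (v, r))) with
  | true =>
    left
    have h1 := me_open v r ω h
    have h2 : (min (ls (me (v, r))).1 (ls (nx ω (me (v, r)))).1, min (ls (me (v, r))).2
        (ls (nx ω (me (v, r)))).2) = hdv (me (v, r)) := by
      rw [h1, ls_me, ls_me, hdv_me]
      rfl
    refine ⟨rfl, ⟨?_, ?_, ?_⟩, ?_, h2⟩
    · rw [h1, ls_me, ls_me]; exact (ro_dir v (r + 1)).1
    · rw [h1, ls_me, ls_me]; exact (ro_dir v (r + 1)).2
    · rw [h2]; exact h
    · show rs (nx ω (me (v, r))) = rs (me (v, r))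
      rw [h1, rs_me, rs_me]
      congr 1
      rcases fin4_cases r with rfl | rfl | rfl | rfl
      · show face (v + dir 1) 3 = face v 0
        simp only [face, dir]; ext <;> simp
      · show face (v + dir 2) 0 = face v 1
        simp only [face, dir]; ext <;> simp
      · show face (v + dir 3) 1 = face v 2
        simp only [face, dir]; ext <;> simp
      · show face (v + dir 0) 2 = face v 3
        simp only [face, dir]; ext <;> simp
  | false =>
    right
    have h1 := me_closed v r ω h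
    have h3 : PStep (op (cfg ∅))ᶜ (rf (face v r)) (rf (face v (r + 1))) :=
      fStep_iff.2 ⟨v, r, rfl, rfl, Set.notMem_empty _⟩
    have h2 : (min (rs (me (v, r))).1 (rs (nx ω (me (v, r)))).1, min (rs (me (v, r))).2
        (rs (nx ω (me (v, r)))).2) = hdv (me (v, r)) := by
      rw [h1, rs_me, rs_me, hdv_me]
      unfold ahead
      rw [sq_mk]
      obtain ⟨a, b⟩ := v
      rcases fin4_cases r with rfl | rfl | rfl | rfl
      · have e1 : ((0 : Fin 4) + 1) = 1 := rfl
        simp only [e1, face, dir, rf, ro]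
        ext <;> simp <;> omega
      · have e1 : ((1 : Fin 4) + 1) = 2 := rfl
        simp only [e1, face, dir, rf, ro]
        ext <;> simp <;> omega
      · have e1 : ((2 : Fin 4) + 1) = 3 := rfl
        simp only [e1, face, dir, rf, ro]
        ext <;> simp <;> omega
      · have e1 : ((3 : Fin 4) + 1) = 0 := rfl
        simp only [e1, face, dir, rf, ro]
        ext <;> simp <;> omega
    refine ⟨rfl, ⟨?_, ?_, ?_⟩, ?_, h2⟩
    · rw [h1, rs_me, rs_me]; exact h3.1
    · rw [h1, rs_me, rs_me]; exact h3.2.1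
    · rw [h2]
      intro h4
      have h5 : ω (hdv (me (v, r))) = true := h4
      rw [h] at h5
      exact Bool.false_ne_true h5
    · show ls (nx ω (me (v, r))) = ls (me (v, r))
      rw [h1, ls_me, ls_me]

/-! ### the law -/

/-- the open edges of the domain -/
def As (S : Finset (ℤ × ℤ)) (ω : Cfg) : Finset (Sym2 (ℤ × ℤ)) :=
  (edges S).filter fun e => ω (sq e) = true

theorem As_subset (S : Finset (ℤ × ℤ)) (ω : Cfg) : As S ω ⊆ edges S := Finset.filter_subset _ _

theorem mem_As {S : Finset (ℤ × ℤ)} {ω : Cfg} {e : Sym2 (ℤ × ℤ)} :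
    e ∈ As S ω ↔ e ∈ edges S ∧ ω (sq e) = true := by
  unfold As
  rw [Finset.mem_filter]

theorem fair_single (b : Bool) : fair {b} = 2⁻¹ := by
  unfold fair
  rw [Measure.add_apply, Measure.smul_apply, Measure.smul_apply,
    Measure.dirac_apply' _ (MeasurableSet.singleton b),
    Measure.dirac_apply' _ (MeasurableSet.singleton b)]
  cases b <;> simp [Set.indicator]

theorem As_eq_iff {S : Finset (ℤ × ℤ)} {A : Finset (Sym2 (ℤ × ℤ))} (hA : A ⊆ edges S) (ω : Cfg) :
    As S ω = A ↔ ω ∈ Set.pi (↑((edges S).image sq) : Set (ℤ × ℤ))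
      (fun q => {cfg (A : Set (Sym2 (ℤ × ℤ))) q}) := by
  classical
  rw [Set.mem_pi]
  constructor
  · intro h q hq
    rw [Finset.mem_coe, Finset.mem_image] at hq
    obtain ⟨e, he, rfl⟩ := hq
    rw [Set.mem_singleton_iff, Bool.eq_iff_iff, cfg_true, ed_sq (isEdge_edges he), Finset.mem_coe,
      ← h, mem_As]
    exact ⟨fun h1 => ⟨he, h1⟩, fun h1 => h1.2⟩
  · intro h
    ext e
    rw [mem_As]
    constructor
    · rintro ⟨h1, h2⟩
      have h3 := h (sq e) (Finset.mem_coe.2 (Finset.mem_image_of_mem _ h1))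
      rw [Set.mem_singleton_iff, h2] at h3
      have h4 := cfg_true.1 h3.symm
      rwa [ed_sq (isEdge_edges h1)] at h4
    · intro h1
      refine ⟨hA h1, ?_⟩
      have h3 := h (sq e) (Finset.mem_coe.2 (Finset.mem_image_of_mem _ (hA h1)))
      rw [Set.mem_singleton_iff] at h3
      rw [h3, cfg_true, ed_sq (isEdge_edges (hA h1))]
      exact h1

theorem measurable_As_eq {S : Finset (ℤ × ℤ)} {A : Finset (Sym2 (ℤ × ℤ))} (hA : A ⊆ edges S) :
    MeasurableSet {ω : Cfg | As S ω = A} := by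
  have h1 : {ω : Cfg | As S ω = A} = Set.pi (↑((edges S).image sq) : Set (ℤ × ℤ))
      (fun q => {cfg (A : Set (Sym2 (ℤ × ℤ))) q}) := by
    ext ω; exact As_eq_iff hA ω
  rw [h1]
  exact MeasurableSet.pi (Finset.countable_toSet _) fun q _ => MeasurableSet.singleton _

/-- every set of open edges has the same probability -/
theorem measure_As_eq {S : Finset (ℤ × ℤ)} {A : Finset (Sym2 (ℤ × ℤ))} (hA : A ⊆ edges S) :
    μ {ω : Cfg | As S ω = A} = 2⁻¹ ^ (edges S).card := by
  classical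
  have h1 : {ω : Cfg | As S ω = A} = Set.pi (↑((edges S).image sq) : Set (ℤ × ℤ))
      (fun q => {cfg (A : Set (Sym2 (ℤ × ℤ))) q}) := by
    ext ω; exact As_eq_iff hA ω
  rw [h1]
  unfold μ
  rw [Measure.infinitePi_pi (μ := fun _ : ℤ × ℤ => fair)
    (fun q _ => MeasurableSet.singleton _)]
  simp only [fair_single]
  rw [Finset.prod_const, Finset.card_image_of_injOn]
  intro e he e' he' h
  exact sq_inj (isEdge_edges he) (isEdge_edges he') h

theorem measurable_As {γ : Type*} [MeasurableSpace γ] (S : Finset (ℤ × ℤ))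
    (F : Finset (Sym2 (ℤ × ℤ)) → γ) : Measurable fun ω : Cfg => F (As S ω) := by
  classical
  intro B _
  have h1 : (fun ω : Cfg => F (As S ω)) ⁻¹' B =
      ⋃ A ∈ ((edges S).powerset.filter fun A => F A ∈ B), {ω : Cfg | As S ω = A} := by
    ext ω
    simp only [Set.mem_preimage, Set.mem_iUnion, Set.mem_ofPred_eq, Finset.mem_filter,
      Finset.mem_powerset, exists_prop]
    constructor
    · intro h
      exact ⟨As S ω, ⟨As_subset S ω, h⟩, rfl⟩
    · rintro ⟨A, ⟨-, h2⟩, h3⟩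
      rwa [h3]
  rw [h1]
  refine Finset.measurableSet_biUnion _ fun A hA => ?_
  exact measurable_As_eq (Finset.mem_powerset.1 (Finset.mem_filter.1 hA).1)

/-- **the law of the open edges** -/
theorem mean_eq (S : Finset (ℤ × ℤ)) (F : Finset (Sym2 (ℤ × ℤ)) → ℝ) :
    mean S F = ∫ ω, F (As S ω) ∂μ := by
  classical
  have h1 : ∀ ω : Cfg, F (As S ω) =
      ∑ A ∈ (edges S).powerset, F A * ({ω : Cfg | As S ω = A}.indicator (fun _ => (1 : ℝ)) ω) := by
    intro ω
    rw [Finset.sum_eq_single (As S ω)]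
    · rw [Set.indicator_of_mem (show ω ∈ {ω' : Cfg | As S ω' = As S ω} from rfl), mul_one]
    · intro A _ hA
      have h2 : ω ∉ {ω : Cfg | As S ω = A} := fun h : As S ω = A => hA h.symm
      rw [Set.indicator_of_notMem h2, mul_zero]
    · intro h
      exact absurd (Finset.mem_powerset.2 (As_subset S ω)) h
  simp only [h1]
  rw [integral_finsetSum]
  · unfold mean
    rw [Finset.sum_div]
    refine Finset.sum_congr rfl fun A hA => ?_
    have hA' := Finset.mem_powerset.1 hA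
    rw [integral_const_mul, integral_indicator (measurable_As_eq hA')]
    rw [setIntegral_const, smul_eq_mul, mul_one, Measure.real, measure_As_eq hA']
    rw [ENNReal.toReal_pow, ENNReal.toReal_inv, div_eq_mul_inv, inv_pow]
    norm_num
  · intro A hA
    refine Integrable.const_mul ?_ _
    exact (integrable_const (1 : ℝ)).indicator (measurable_As_eq (Finset.mem_powerset.1 hA))

end Vale.Agent.P167.H192
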