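import Vale.Agent.P167.H192.Dict2

/-!
# P167, SLE_6, block E3/S4: the interface as an exploration

Squares model: `D` finite set of (random) squares, `bc` the states of the other squares,
`path D bc e w i = (nx (w on D, bc off D))^[i] e`, `rev D bc e k w` = the squares of `D` read in the
first `k` steps.

* `expl_rev`: `rev` is an increasing sequence of stopping sets (`H558.Expl`).
* `past_path`: `path i`, `i ≤ k`, is revealed by `rev k`.
* `path_add`: after a stopping set the path is the path of the remaining domain (domain Markov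
  property), for an arbitrary stopping set containing the squares which were read.
* `ls_chain`, `rs_chain`: the left and right sites of the path are joined by open / dual open
  squares among those which were read or are off `D`.
* `cfg_wiredOpen`: the configuration of `E6` in this form; `E6path`: the medial path of `E6`.
-/

namespace Vale.Agent.P167.H192

open Vale.Agent.P167.E6 Vale.Agent.P145.FB Vale.Agent.P167.H558
open MeasureTheory Relation

/-- the configuration `w` on `D`, `bc` off `D` -/
noncomputable def ov (D : Finset (ℤ × ℤ)) (bc w : Cfg) : Cfg := glue (↑D) w bc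

/-- the path -/
noncomputable def path (D : Finset (ℤ × ℤ)) (bc : Cfg) (e : Ed) (w : Cfg) (i : ℕ) : Ed :=
  (nx (ov D bc w))^[i] e

/-- the squares of `D` which are read in the first `k` steps -/
noncomputable def rev (D : Finset (ℤ × ℤ)) (bc : Cfg) (e : Ed) (k : ℕ) (w : Cfg) :
    Finset (ℤ × ℤ) :=
  ((Finset.range k).image fun i => hdv (path D bc e w i)).filter (· ∈ D)

variable {D : Finset (ℤ × ℤ)} {bc : Cfg} {e : Ed}

theorem ov_mem {w : Cfg} {q : ℤ × ℤ} (h : q ∈ D) : ov D bc w q = w q :=
  glue_mem (Finset.mem_coe.2 h)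

theorem ov_notMem {w : Cfg} {q : ℤ × ℤ} (h : q ∉ D) : ov D bc w q = bc q :=
  glue_not_mem fun h' => h (Finset.mem_coe.1 h')

theorem path_zero (w : Cfg) : path D bc e w 0 = e := rfl

theorem path_succ (w : Cfg) (i : ℕ) :
    path D bc e w (i + 1) = nx (ov D bc w) (path D bc e w i) :=
  Function.iterate_succ_apply' _ _ _

theorem mem_rev {k : ℕ} {w : Cfg} {q : ℤ × ℤ} :
    q ∈ rev D bc e k w ↔ q ∈ D ∧ ∃ i < k, hdv (path D bc e w i) = q := by
  unfold rev
  rw [Finset.mem_filter, Finset.mem_image]
  simp only [Finset.mem_range]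
  tauto

theorem rev_subset (k : ℕ) (w : Cfg) : rev D bc e k w ⊆ D := fun _ hq => (mem_rev.1 hq).1

theorem rev_mono (w : Cfg) : Monotone fun k => rev D bc e k w := by
  intro j k hjk q hq
  rw [mem_rev] at hq ⊢
  obtain ⟨h1, i, hi, h2⟩ := hq
  exact ⟨h1, i, hi.trans_le hjk, h2⟩

/-- the rule reads one square -/
theorem nx_congr {ω ω' : Cfg} {c : Ed} (h : ω' (hdv c) = ω (hdv c)) : nx ω' c = nx ω c := by
  obtain ⟨⟨v, r⟩, rfl⟩ := meE.surjective c
  show nx ω' (me (v, r)) = nx ω (me (v, r))
  cases h1 : ω (hdv (me (v, r))) with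
  | true => rw [me_open v r ω h1, me_open v r ω' (h.trans h1)]
  | false => rw [me_closed v r ω h1, me_closed v r ω' (h.trans h1)]

/-- two configurations which agree on the squares read up to time `k` have the same path up to
time `k`, for possibly different domains and boundary values -/
theorem path_congr {D' : Finset (ℤ × ℤ)} {bc' w w' : Cfg} {k : ℕ}
    (h : ∀ i < k, ov D' bc' w' (hdv (path D bc e w i)) = ov D bc w (hdv (path D bc e w i))) :
    ∀ i ≤ k, path D' bc' e w' i = path D bc e w i := by
  intro i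
  induction i with
  | zero => exact fun _ => rfl
  | succ i ih =>
    intro hi
    rw [path_succ, path_succ, ih (by omega)]
    exact nx_congr (h i (by omega))

theorem path_eq_of_rev {w w' : Cfg} {k : ℕ} (h : ∀ q ∈ rev D bc e k w, w' q = w q) :
    ∀ i ≤ k, path D bc e w' i = path D bc e w i := by
  refine path_congr fun i hi => ?_
  by_cases hD : hdv (path D bc e w i) ∈ D
  · rw [ov_mem hD, ov_mem hD]
    exact h _ (mem_rev.2 ⟨hD, i, hi, rfl⟩)
  · rw [ov_notMem hD, ov_notMem hD]

/-- the path is revealed -/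
theorem past_path {i k : ℕ} (hi : i ≤ k) : Past (rev D bc e k) fun w => path D bc e w i :=
  fun _ _ h => path_eq_of_rev h i hi

theorem stop_rev (k : ℕ) : StopSet (rev D bc e k) := by
  intro w w' h
  ext q
  rw [mem_rev, mem_rev]
  refine and_congr_right fun _ => exists_congr fun i => and_congr_right fun hi => ?_
  rw [path_eq_of_rev h i hi.le]

/-- **the interface is an exploration** -/
theorem expl_rev : Expl (rev D bc e) := ⟨stop_rev, rev_mono⟩

/-- the first `k + 1` medial edges, as a function -/
theorem past_path_fun (k : ℕ) : Past (rev D bc e k) fun w (i : Fin (k + 1)) => path D bc e w i :=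
  fun _ _ h => funext fun i => path_eq_of_rev h i (Nat.lt_succ_iff.1 i.2)

/-- the states of the squares which were read (and of the squares off `D`) are revealed -/
theorem past_state (k : ℕ) (q : ℤ × ℤ) :
    Past (rev D bc e k) fun w => if q ∈ rev D bc e k w ∨ q ∉ D then ov D bc w q else false := by
  intro w w' h
  show (if q ∈ rev D bc e k w' ∨ q ∉ D then ov D bc w' q else false) =
    if q ∈ rev D bc e k w ∨ q ∉ D then ov D bc w q else false
  rw [stop_rev k w w' h]
  split_ifs with h1
  · rcases h1 with h1 | h1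
    · rw [ov_mem (rev_subset k w h1), ov_mem (rev_subset k w h1), h q h1]
    · rw [ov_notMem h1, ov_notMem h1]
  · rfl

/-! ### the future -/

open scoped Classical in
/-- configuration after revealing `R ⊆ D` -/
theorem ov_glue {R : Finset (ℤ × ℤ)} (hR : R ⊆ D) (w w' : Cfg) :
    ov D bc (glue (↑R) w w') = ov (D \ R) (ov R bc w) w' := by
  funext q
  by_cases hD : q ∈ D
  · rw [ov_mem hD]
    by_cases hq : q ∈ R
    · rw [glue_mem (Finset.mem_coe.2 hq), ov_notMem (fun h => (Finset.mem_sdiff.1 h).2 hq),
        ov_mem hq]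
    · rw [glue_not_mem (fun h => hq (Finset.mem_coe.1 h)), ov_mem (Finset.mem_sdiff.2 ⟨hD, hq⟩)]
  · rw [ov_notMem hD, ov_notMem (fun h => hD (Finset.mem_sdiff.1 h).1),
      ov_notMem (fun h => hD (hR h))]

open scoped Classical in
theorem ov_self {R : Finset (ℤ × ℤ)} (hR : R ⊆ D) (w : Cfg) :
    ov D bc w = ov (D \ R) (ov R bc w) w := by
  rw [← ov_glue hR w w]
  congr 1
  funext q
  by_cases hq : q ∈ R
  · rw [glue_mem (Finset.mem_coe.2 hq)]
  · rw [glue_not_mem (fun h => hq (Finset.mem_coe.1 h))]

open scoped Classical in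
/-- **domain Markov property**: after a revealed set `R ⊆ D` which contains the squares read in
the first `k` steps, the path is the path of the domain `D \ R` started at its `k`-th medial edge;
`w'` may be `w` or an independent configuration -/
theorem path_glue_add {R : Finset (ℤ × ℤ)} (hR : R ⊆ D) {w : Cfg} {k : ℕ}
    (hk : rev D bc e k w ⊆ R) (w' : Cfg) (i : ℕ) :
    path D bc e (glue (↑R) w w') (k + i) =
      path (D \ R) (ov R bc w) (path D bc e w k) w' i := by
  have h1 : path D bc e (glue (↑R) w w') k = path D bc e w k :=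
    path_eq_of_rev (fun q hq => glue_mem (Finset.mem_coe.2 (hk hq))) k le_rfl
  unfold path at *
  rw [add_comm, Function.iterate_add_apply, h1, ov_glue hR]

open scoped Classical in
theorem path_add {R : Finset (ℤ × ℤ)} (hR : R ⊆ D) (w : Cfg) (k i : ℕ) :
    path D bc e w (k + i) = path (D \ R) (ov R bc w) (path D bc e w k) w i := by
  unfold path
  rw [add_comm, Function.iterate_add_apply, ← ov_self hR]

/-! ### chains -/

/-- the squares which are frozen or were read up to time `k` -/
def known (D : Finset (ℤ × ℤ)) (bc : Cfg) (e : Ed) (k : ℕ) (w : Cfg) : Set (ℤ × ℤ) :=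
  {q | q ∈ rev D bc e k w ∨ q ∉ D}

theorem hdv_known {w : Cfg} {i k : ℕ} (h : i < k) : hdv (path D bc e w i) ∈ known D bc e k w := by
  by_cases hD : hdv (path D bc e w i) ∈ D
  · exact Or.inl (mem_rev.2 ⟨hD, i, h, rfl⟩)
  · exact Or.inr hD

/-- one step -/
theorem path_step (w : Cfg) {i k : ℕ} (h : i < k) :
    (PStep (op (ov D bc w) ∩ known D bc e k w) (ls (path D bc e w i)) (ls (path D bc e w (i + 1))) ∧
      rs (path D bc e w (i + 1)) = rs (path D bc e w i)) ∨
    (PStep ((op (ov D bc w))ᶜ ∩ known D bc e k w) (rs (path D bc e w i))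
        (rs (path D bc e w (i + 1))) ∧
      ls (path D bc e w (i + 1)) = ls (path D bc e w i)) := by
  rw [path_succ]
  rcases ls_nx (ov D bc w) (path D bc e w i) with ⟨_, h2, h3, h4⟩ | ⟨_, h2, h3, h4⟩
  · refine Or.inl ⟨⟨h2.1, h2.2.1, h2.2.2, ?_⟩, h3⟩
    rw [h4]
    exact hdv_known h
  · refine Or.inr ⟨⟨h2.1, h2.2.1, h2.2.2, ?_⟩, h3⟩
    rw [h4]
    exact hdv_known h

/-- the left sites are connected by known open squares -/
theorem ls_chain (w : Cfg) {i j k : ℕ} (hij : i ≤ j) (hjk : j ≤ k) :
    ReflTransGen (PStep (op (ov D bc w) ∩ known D bc e k w)) (ls (path D bc e w i))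
      (ls (path D bc e w j)) := by
  induction j, hij using Nat.le_induction with
  | base => exact ReflTransGen.refl
  | succ j hij ih =>
    rcases path_step (D := D) (bc := bc) (e := e) w (show j < k by omega) with ⟨h1, -⟩ | ⟨-, h1⟩
    · exact (ih (by omega)).tail h1
    · rw [h1]
      exact ih (by omega)

/-- the right sites are connected by known dual open squares -/
theorem rs_chain (w : Cfg) {i j k : ℕ} (hij : i ≤ j) (hjk : j ≤ k) :
    ReflTransGen (PStep ((op (ov D bc w))ᶜ ∩ known D bc e k w)) (rs (path D bc e w i))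
      (rs (path D bc e w j)) := by
  induction j, hij using Nat.le_induction with
  | base => exact ReflTransGen.refl
  | succ j hij ih =>
    rcases path_step (D := D) (bc := bc) (e := e) w (show j < k by omega) with ⟨-, h1⟩ | ⟨h1, -⟩
    · rw [h1]
      exact ih (by omega)
    · exact (ih (by omega)).tail h1

/-! ### the interface of `E6` -/

/-- the wired edges -/
def wires {n : ℕ} (p : ZMod n → ℤ × ℤ) (k : ℕ) : Set (Sym2 (ℤ × ℤ)) :=
  {e | ∃ i : ℕ, k ≤ i ∧ i + 1 < n ∧ e = s(p i, p (i + 1))}

open scoped Classical in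
/-- the random squares: those of the edges of the domain which are not wired -/
noncomputable def dq {n : ℕ} (p : ZMod n → ℤ × ℤ) (k : ℕ) (S : Finset (ℤ × ℤ)) :
    Finset (ℤ × ℤ) := ((edges S).filter (· ∉ wires p k)).image sq

/-- the states of the other squares -/
noncomputable def bq {n : ℕ} (p : ZMod n → ℤ × ℤ) (k : ℕ) : Cfg := cfg (wires p k)

theorem mem_dq {n : ℕ} {p : ZMod n → ℤ × ℤ} {k : ℕ} {S : Finset (ℤ × ℤ)} {q : ℤ × ℤ} :
    q ∈ dq p k S ↔ ed q ∈ edges S ∧ ed q ∉ wires p k := by
  classical
  unfold dq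
  rw [Finset.mem_image]
  constructor
  · rintro ⟨e, he, rfl⟩
    rw [Finset.mem_filter] at he
    rw [ed_sq (isEdge_edges he.1)]
    exact he
  · intro h
    exact ⟨ed q, Finset.mem_filter.2 h, sq_ed q⟩

/-- **the configuration of the interface of `E6`** -/
theorem cfg_wiredOpen {n : ℕ} (p : ZMod n → ℤ × ℤ) (k : ℕ) (S : Finset (ℤ × ℤ)) (w : Cfg) :
    cfg (wiredOpen p k (As S w)) = ov (dq p k S) (bq p k) w := by
  funext q
  rw [Bool.eq_iff_iff, cfg_true]
  have h0 : ed q ∈ wiredOpen p k (As S w) ↔ ed q ∈ As S w ∨ ed q ∈ wires p k := Iff.rfl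
  rw [h0, mem_As, sq_ed]
  by_cases hq : q ∈ dq p k S
  · rw [ov_mem hq]
    rw [mem_dq] at hq
    constructor
    · rintro (h | h)
      · exact h.2
      · exact absurd h hq.2
    · exact fun h => Or.inl ⟨hq.1, h⟩
  · rw [ov_notMem hq]
    rw [mem_dq] at hq
    unfold bq
    rw [cfg_true]
    constructor
    · rintro (h | h)
      · by_contra h1
        exact hq ⟨h.1, h1⟩
      · exact h
    · exact Or.inr

/-- the medial path of `E6` -/
theorem E6path {n : ℕ} (p : ZMod n → ℤ × ℤ) (k : ℕ) (S : Finset (ℤ × ℤ)) (w : Cfg) (c : Medial)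
    (j : ℕ) : me ((next (wiredOpen p k (As S w)))^[j] c) = path (dq p k S) (bq p k) (me c) w j := by
  unfold path
  rw [← cfg_wiredOpen, nx_cfg_iterate]

/-- the same for a sequence given by the recursion of `IsInterface` -/
theorem E6seq {n : ℕ} (p : ZMod n → ℤ × ℤ) (k : ℕ) (S : Finset (ℤ × ℤ)) (w : Cfg)
    {c : ℕ → Medial} (hc : ∀ j, c (j + 1) = next (wiredOpen p k (As S w)) (c j)) (j : ℕ) :
    me (c j) = path (dq p k S) (bq p k) (me (c 0)) w j := by
  rw [← E6path]
  congr 1
  induction j with
  | zero => rfl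
  | succ j ih => rw [Function.iterate_succ_apply', ← ih, hc]

end Vale.Agent.P167.H192
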