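import Vale.Agent.P167.CL.Cut
import Vale.Agent.P167.H450.Brick
import Vale.Agent.P167.E6.Poly6

/-!
# P167, block CLOSE/CUT: the staircase

Rotated plane `w = (1 + i) z`. `sqr δ v` is the closed square `v` of mesh `δ`.

* `sconn_open`: the squares which meet a connected open set are connected through sides;
* `stair`: a connected open subset `U` of the rotated domain inside the ball of radius `C δ` around a
  boundary point `w*` in its closure, far from the wired vertices: every square meeting `U` is joined,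
  by a chain of random squares which meet `U`, to a square with a free boundary vertex as corner;
* `stair_ball`: the case of a disc touching the boundary at `w*`.
-/

set_option autoImplicit false

open Set Metric Filter Topology

namespace Vale.Agent.P167.H192

open Vale.Agent.P167.E6
open Vale.Agent.P167.CL (SAdj Crn SConn wst)
open Vale.Agent.P167.H450 (sqr)
open Vale.Agent.P167.H531 (arcV)
open Complex (I)

/-! ### Squares which meet a connected open set -/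

theorem isClosed_sqr (δ : ℝ) (v : ℤ × ℤ) : IsClosed (sqr δ v) := by
  have h : sqr δ v = ({z : ℂ | δ * v.1 ≤ z.re} ∩ {z | z.re ≤ δ * (v.1 + 1)}) ∩
      ({z | δ * v.2 ≤ z.im} ∩ {z | z.im ≤ δ * (v.2 + 1)}) := by
    ext z; simp only [sqr, mem_ofPred_eq, mem_inter_iff]; tauto
  rw [h]
  exact ((isClosed_le continuous_const Complex.continuous_re).inter
    (isClosed_le Complex.continuous_re continuous_const)).inter
    ((isClosed_le continuous_const Complex.continuous_im).inter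
    (isClosed_le Complex.continuous_im continuous_const))

variable {δ : ℝ}

/-- Every point is in a square. -/
theorem exists_sqr (hδ : 0 < δ) (w : ℂ) : ∃ v, w ∈ sqr δ v := by
  refine ⟨(⌊w.re / δ⌋, ⌊w.im / δ⌋), ?_, ?_, ?_, ?_⟩
  · have := Int.floor_le (w.re / δ)
    rwa [le_div_iff₀ hδ, mul_comm] at this
  · have := (Int.lt_floor_add_one (w.re / δ)).le
    rwa [div_le_iff₀ hδ, mul_comm] at this
  · have := Int.floor_le (w.im / δ)
    rwa [le_div_iff₀ hδ, mul_comm] at this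
  · have := (Int.lt_floor_add_one (w.im / δ)).le
    rwa [div_le_iff₀ hδ, mul_comm] at this

theorem aux_bd (hδ : 0 < δ) {a : ℤ} {x y : ℝ} (h1 : δ * a ≤ y) (h2 : y ≤ δ * (a + 1))
    (h3 : |y - x| < δ) : a ∈ Icc (⌊x / δ⌋ - 2) (⌊x / δ⌋ + 2) := by
  have h4 := Int.floor_le (x / δ)
  have h5 := Int.lt_floor_add_one (x / δ)
  rw [le_div_iff₀ hδ] at h4
  rw [div_lt_iff₀ hδ] at h5
  obtain ⟨h6, h7⟩ := abs_lt.1 h3
  constructor
  · have : ((⌊x / δ⌋ : ℤ) : ℝ) < ((a + 2 : ℤ) : ℝ) := by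
      push_cast
      refine lt_of_mul_lt_mul_right ?_ hδ.le
      nlinarith
    have := Int.cast_lt.1 this
    omega
  · have : ((a : ℤ) : ℝ) < ((⌊x / δ⌋ + 2 : ℤ) : ℝ) := by
      push_cast
      refine lt_of_mul_lt_mul_right ?_ hδ.le
      nlinarith
    have := Int.cast_lt.1 this
    omega

theorem locallyFinite_sqr (hδ : 0 < δ) : LocallyFinite fun v : ℤ × ℤ => sqr δ v := by
  intro z
  refine ⟨ball z δ, ball_mem_nhds z hδ, ?_⟩
  refine Set.Finite.subset ((finite_Icc (⌊z.re / δ⌋ - 2) (⌊z.re / δ⌋ + 2)).prod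
    (finite_Icc (⌊z.im / δ⌋ - 2) (⌊z.im / δ⌋ + 2))) ?_
  rintro v ⟨w, ⟨h1, h2, h3, h4⟩, h5⟩
  rw [mem_ball, dist_eq_norm] at h5
  refine ⟨aux_bd hδ h1 h2 ?_, aux_bd hδ h3 h4 ?_⟩
  · exact (by simpa using Complex.abs_re_le_norm (w - z) : |w.re - z.re| ≤ ‖w - z‖).trans_lt h5
  · exact (by simpa using Complex.abs_im_le_norm (w - z) : |w.im - z.im| ≤ ‖w - z‖).trans_lt h5

/-- Two squares with a common point. -/
theorem sqr_near (hδ : 0 < δ) {v v' : ℤ × ℤ} {z : ℂ} (h : z ∈ sqr δ v) (h' : z ∈ sqr δ v') :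
    |v.1 - v'.1| ≤ 1 ∧ |v.2 - v'.2| ≤ 1 := by
  obtain ⟨h1, h2, h3, h4⟩ := h
  obtain ⟨h5, h6, h7, h8⟩ := h'
  have e1 : (v.1 : ℝ) ≤ (v'.1 + 1 : ℝ) := le_of_mul_le_mul_left (h1.trans h6) hδ
  have e2 : (v'.1 : ℝ) ≤ (v.1 + 1 : ℝ) := le_of_mul_le_mul_left (h5.trans h2) hδ
  have e3 : (v.2 : ℝ) ≤ (v'.2 + 1 : ℝ) := le_of_mul_le_mul_left (h3.trans h8) hδ
  have e4 : (v'.2 : ℝ) ≤ (v.2 + 1 : ℝ) := le_of_mul_le_mul_left (h7.trans h4) hδ
  have f1 : v.1 ≤ v'.1 + 1 := by exact_mod_cast e1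
  have f2 : v'.1 ≤ v.1 + 1 := by exact_mod_cast e2
  have f3 : v.2 ≤ v'.2 + 1 := by exact_mod_cast e3
  have f4 : v'.2 ≤ v.2 + 1 := by exact_mod_cast e4
  rw [abs_le, abs_le]
  omega

/-- The squares which contain a given point are connected. -/
theorem conn_pt (hδ : 0 < δ) {G : Set (ℤ × ℤ)} {v v' : ℤ × ℤ} {z : ℂ} (h : z ∈ sqr δ v)
    (h' : z ∈ sqr δ v') (hG : ∀ v, z ∈ sqr δ v → v ∈ G) :
    Relation.ReflTransGen (fun a b => SAdj a b ∧ b ∈ G) v v' := by
  obtain ⟨h9, h10⟩ := sqr_near hδ h h'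
  rw [abs_le] at h9 h10
  have hm : z ∈ sqr δ (v'.1, v.2) := ⟨h'.1, h'.2.1, h.2.2.1, h.2.2.2⟩
  have s1 : Relation.ReflTransGen (fun a b => SAdj a b ∧ b ∈ G) v (v'.1, v.2) := by
    by_cases e : v.1 = v'.1
    · rw [← e]
    · refine Relation.ReflTransGen.single ⟨Or.inr ⟨rfl, ?_⟩, hG _ hm⟩
      simp only
      omega
  refine s1.trans ?_
  by_cases e : v.2 = v'.2
  · rw [e]
  · refine Relation.ReflTransGen.single ⟨Or.inl ⟨rfl, ?_⟩, hG _ h'⟩
    simp only
    omega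

/-- **The squares which meet a connected open set are connected through sides.** -/
theorem sconn_open (hδ : 0 < δ) {U : Set ℂ} (hU : IsPreconnected U) :
    SConn {v | (sqr δ v ∩ U).Nonempty} := by
  intro v hv w hw
  by_contra hcon
  set G : Set (ℤ × ℤ) := {v | (sqr δ v ∩ U).Nonempty} with hG
  set R : (ℤ × ℤ) → Prop := fun x => Relation.ReflTransGen (fun a b => SAdj a b ∧ b ∈ G) v x
    with hR
  have c1 : IsClosed (⋃ x : {x // R x}, sqr δ x.1) :=
    ((locallyFinite_sqr hδ).comp_injective Subtype.val_injective).isClosed_iUnion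
      fun x => isClosed_sqr δ x.1
  have c2 : IsClosed (⋃ x : {x // ¬ R x}, sqr δ x.1) :=
    ((locallyFinite_sqr hδ).comp_injective Subtype.val_injective).isClosed_iUnion
      fun x => isClosed_sqr δ x.1
  obtain ⟨a, ha1, ha2⟩ := hv
  obtain ⟨b, hb1, hb2⟩ := hw
  obtain ⟨z, hz, hz1, hz2⟩ := isPreconnected_closed_iff.1 hU _ _ c1 c2 (by
      intro z _
      obtain ⟨x, hx⟩ := exists_sqr hδ z
      by_cases h : R x
      · exact Or.inl (mem_iUnion.2 ⟨⟨x, h⟩, hx⟩)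
      · exact Or.inr (mem_iUnion.2 ⟨⟨x, h⟩, hx⟩))
    ⟨a, ha2, mem_iUnion.2 ⟨⟨v, Relation.ReflTransGen.refl⟩, ha1⟩⟩
    ⟨b, hb2, mem_iUnion.2 ⟨⟨w, hcon⟩, hb1⟩⟩
  obtain ⟨x, hx⟩ := mem_iUnion.1 hz1
  obtain ⟨y, hy⟩ := mem_iUnion.1 hz2
  exact y.2 (x.2.trans (conn_pt hδ hx hy fun q hq => ⟨z, hq, hz⟩))

/-- A point of the closure of an open set is in a square which meets the set. -/
theorem exists_last (hδ : 0 < δ) {U : Set ℂ} {w : ℂ} (hw : w ∈ closure U) :
    ∃ v, w ∈ sqr δ v ∧ (sqr δ v ∩ U).Nonempty := by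
  have c1 : IsClosed (⋃ x : {x : ℤ × ℤ // (sqr δ x ∩ U).Nonempty}, sqr δ x.1) :=
    ((locallyFinite_sqr hδ).comp_injective Subtype.val_injective).isClosed_iUnion
      fun x => isClosed_sqr δ x.1
  have h1 : U ⊆ ⋃ x : {x : ℤ × ℤ // (sqr δ x ∩ U).Nonempty}, sqr δ x.1 := by
    intro z hz
    obtain ⟨v, hv⟩ := exists_sqr hδ z
    exact mem_iUnion.2 ⟨⟨v, z, hv, hz⟩, hv⟩
  obtain ⟨x, hx⟩ := mem_iUnion.1 (closure_minimal h1 c1 hw)
  exact ⟨x.1, hx, x.2⟩

/-- Chains as functions. -/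
theorem exists_chain {G : Set (ℤ × ℤ)} {v w : ℤ × ℤ} (hv : v ∈ G)
    (h : Relation.ReflTransGen (fun a b => SAdj a b ∧ b ∈ G) v w) :
    ∃ (L : ℕ) (c : ℕ → ℤ × ℤ), c 0 = v ∧ c L = w ∧ (∀ i < L, SAdj (c i) (c (i + 1))) ∧
      ∀ i ≤ L, c i ∈ G := by
  induction h with
  | refl => exact ⟨0, fun _ => v, rfl, rfl, fun i hi => absurd hi (by omega), fun i _ => hv⟩
  | @tail a b _ hb ih =>
    obtain ⟨L, c, h0, h1, h2, h3⟩ := ih
    refine ⟨L + 1, fun i => if i ≤ L then c i else b, ?_, ?_, ?_, ?_⟩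
    · simp only [Nat.zero_le, if_true]; exact h0
    · simp only [show ¬ L + 1 ≤ L by omega, if_false]
    · intro i hi
      by_cases e : i = L
      · subst e
        simp only [le_refl, if_true, show ¬ i + 1 ≤ i by omega, if_false, h1]
        exact hb.1
      · simp only [show i ≤ L by omega, show i + 1 ≤ L by omega, if_true]
        exact h2 i (by omega)
    · intro i hi
      by_cases e : i ≤ L
      · simp only [e, if_true]; exact h3 i e
      · simp only [e, if_false]; exact hb.2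

/-! ### The squares of the domain -/

/-- The point of the rotated plane. -/
theorem rot_pt (u : ℤ × ℤ) : (1 + I) * ((δ : ℂ) * pt u) = δ * pt (ro u) := by
  apply Complex.ext
  · simp [pt, ro]; ring
  · simp [pt, ro]; ring

theorem norm_crn (hδ : 0 < δ) {w : ℂ} {v a : ℤ × ℤ} (hw : w ∈ sqr δ v) (ha : Crn v a) :
    ‖w - δ * pt a‖ ≤ 2 * δ := by
  obtain ⟨h1, h2, h3, h4⟩ := hw
  have e1 : (w - δ * pt a).re = w.re - δ * a.1 := by simp [pt]
  have e2 : (w - δ * pt a).im = w.im - δ * a.2 := by simp [pt]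
  refine (Complex.norm_le_abs_re_add_abs_im _).trans ?_
  rw [e1, e2]
  have h5 : |w.re - δ * a.1| ≤ δ := by
    rw [abs_le]
    rcases ha.1 with h | h
    · rw [h]; constructor <;> nlinarith
    · rw [h]; push_cast; constructor <;> nlinarith
  have h6 : |w.im - δ * a.2| ≤ δ := by
    rw [abs_le]
    rcases ha.2 with h | h
    · rw [h]; constructor <;> nlinarith
    · rw [h]; push_cast; constructor <;> nlinarith
  linarith

/-- Points in the open square close to a point of the closed square. -/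
theorem exists_interior (hδ : 0 < δ) {v : ℤ × ℤ} {w : ℂ} (hw : w ∈ sqr δ v) {V : Set ℂ}
    (hV : IsOpen V) (hwV : w ∈ V) : ∃ w' ∈ V, δ * v.1 < w'.re ∧ w'.re < δ * (v.1 + 1) ∧
      δ * v.2 < w'.im ∧ w'.im < δ * (v.2 + 1) := by
  set c : ℂ := ⟨δ * (v.1 + 1 / 2), δ * (v.2 + 1 / 2)⟩ with hc
  have hcont : Continuous fun t : ℝ => w + t * (c - w) := by fun_prop
  have h0 : Tendsto (fun t : ℝ => w + t * (c - w)) (𝓝[>] 0) (𝓝 w) := by
    have := (hcont.tendsto 0).mono_left (nhdsWithin_le_nhds (s := Ioi 0))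
    simpa using this
  have h1 : ∀ᶠ t : ℝ in 𝓝[>] 0, w + t * (c - w) ∈ V := h0 (hV.mem_nhds hwV)
  have h2 : ∀ᶠ t : ℝ in 𝓝[>] 0, t ∈ Ioo (0 : ℝ) 1 := Ioo_mem_nhdsGT (by norm_num)
  obtain ⟨t, ht1, ht2, ht3⟩ := (h1.and h2).exists
  obtain ⟨g1, g2, g3, g4⟩ := hw
  refine ⟨_, ht1, ?_⟩
  have e1 : (w + t * (c - w)).re = w.re + t * (δ * (v.1 + 1 / 2) - w.re) := by simp [hc]
  have e2 : (w + t * (c - w)).im = w.im + t * (δ * (v.2 + 1 / 2) - w.im) := by simp [hc]
  rw [e1, e2]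
  have k : 0 < t * δ := mul_pos ht2 hδ
  have k1 : 0 ≤ (1 - t) * (w.re - δ * v.1) := mul_nonneg (by linarith) (by linarith)
  have k2 : 0 ≤ (1 - t) * (δ * (v.1 + 1) - w.re) := mul_nonneg (by linarith) (by linarith)
  have k3 : 0 ≤ (1 - t) * (w.im - δ * v.2) := mul_nonneg (by linarith) (by linarith)
  have k4 : 0 ≤ (1 - t) * (δ * (v.2 + 1) - w.im) := mul_nonneg (by linarith) (by linarith)
  refine ⟨?_, ?_, ?_, ?_⟩ <;> nlinarith

/-- **A square which meets the open domain is the square of an edge of the domain.** -/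
theorem mem_edges_of_sqr (hδ : 0 < δ) {S : Finset (ℤ × ℤ)} {z : ℂ} {v : ℤ × ℤ} (hz : z ∈ D6 δ S)
    (hv : (1 + I) * z ∈ sqr δ v) : ed v ∈ edges S := by
  have hne : (1 + I : ℂ) ≠ 0 := by
    intro h
    have := congrArg Complex.re h
    simp at this
  have hV : IsOpen {w : ℂ | w / (1 + I) ∈ D6 δ S} :=
    (isOpen_D6 δ S).preimage (continuous_id.div_const _)
  obtain ⟨w, hw, h1, h2, h3, h4⟩ := exists_interior hδ hv hV
    (by rw [mem_ofPred_eq, mul_div_cancel_left₀ _ hne]; exact hz)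
  have hw' : w / (1 + I) ∈ region δ S := interior_subset hw
  set x : ℂ := w / (1 + I) with hx
  have hwx : w = (1 + I) * x := by rw [hx, mul_div_cancel₀ _ hne]
  have e1 : w.re = x.re - x.im := by rw [hwx]; simp
  have e2 : w.im = x.re + x.im := by rw [hwx]; simp; ring
  obtain ⟨f, hf, g1, g2, g3, g4⟩ := hw'
  rw [e1] at h1 h2
  rw [e2] at h3 h4
  have a1 : f.1 - f.2 - 1 ≤ v.1 := by
    have : ((f.1 - f.2 - 1 : ℤ) : ℝ) < ((v.1 + 1 : ℤ) : ℝ) := by
      push_cast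
      refine lt_of_mul_lt_mul_left ?_ hδ.le
      nlinarith
    have := Int.cast_lt.1 this
    omega
  have a2 : v.1 ≤ f.1 - f.2 := by
    have : ((v.1 : ℤ) : ℝ) < ((f.1 - f.2 + 1 : ℤ) : ℝ) := by
      push_cast
      refine lt_of_mul_lt_mul_left ?_ hδ.le
      nlinarith
    have := Int.cast_lt.1 this
    omega
  have a3 : f.1 + f.2 ≤ v.2 := by
    have : ((f.1 + f.2 : ℤ) : ℝ) < ((v.2 + 1 : ℤ) : ℝ) := by
      push_cast
      refine lt_of_mul_lt_mul_left ?_ hδ.le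
      nlinarith
    have := Int.cast_lt.1 this
    omega
  have a4 : v.2 ≤ f.1 + f.2 + 1 := by
    have : ((v.2 : ℤ) : ℝ) < ((f.1 + f.2 + 2 : ℤ) : ℝ) := by
      push_cast
      refine lt_of_mul_lt_mul_left ?_ hδ.le
      nlinarith
    have := Int.cast_lt.1 this
    omega
  have key : ∃ e ∈ edges S, sq e = v := by
    have hm : ∀ e, e ∈ ({s(f, f + (1, 0)), s(f, f + (0, 1)), s(f + (1, 0), f + (1, 1)),
        s(f + (0, 1), f + (1, 1))} : Finset (Sym2 (ℤ × ℤ))) → e ∈ edges S := fun e he =>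
      Finset.mem_biUnion.2 ⟨f, hf, he⟩
    rcases (show v.1 = f.1 - f.2 - 1 ∨ v.1 = f.1 - f.2 by omega) with b1 | b1 <;>
      rcases (show v.2 = f.1 + f.2 ∨ v.2 = f.1 + f.2 + 1 by omega) with b2 | b2
    · refine ⟨s(f, f + (0, 1)), hm _ (by simp), ?_⟩
      rw [sq_mk]
      refine Prod.ext ?_ ?_ <;> simp only [ro, Prod.fst_add, Prod.snd_add] <;> omega
    · refine ⟨s(f + (0, 1), f + (1, 1)), hm _ (by simp), ?_⟩
      rw [sq_mk]
      refine Prod.ext ?_ ?_ <;> simp only [ro, Prod.fst_add, Prod.snd_add] <;> omega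
    · refine ⟨s(f, f + (1, 0)), hm _ (by simp), ?_⟩
      rw [sq_mk]
      refine Prod.ext ?_ ?_ <;> simp only [ro, Prod.fst_add, Prod.snd_add] <;> omega
    · refine ⟨s(f + (1, 0), f + (1, 1)), hm _ (by simp), ?_⟩
      rw [sq_mk]
      refine Prod.ext ?_ ?_ <;> simp only [ro, Prod.fst_add, Prod.snd_add] <;> omega
  obtain ⟨e, he, rfl⟩ := key
  rwa [ed_sq (isEdge_edges he)]

/-- A point of a lattice edge is in the closed squares which have one of the two ends as corner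
only. -/
theorem crn_of_segment (hδ : 0 < δ) {u : ℤ × ℤ} {r : Fin 4} {z : ℂ}
    (hz : z ∈ segment ℝ ((δ : ℂ) * pt u) ((δ : ℂ) * pt (u + dir r))) {v : ℤ × ℤ}
    (hv : (1 + I) * z ∈ sqr δ v) : Crn v (ro u) ∨ Crn v (ro (u + dir r)) := by
  obtain ⟨a, b, ha, hb, hab, rfl⟩ := hz
  obtain ⟨h1, h2, h3, h4⟩ := hv
  have ea : a = 1 - b := by linarith
  subst ea
  have key : ∀ x y : ℤ, (dir r = (x, y)) →
      ((1 + I) * (((1 - b : ℝ)) • ((δ : ℂ) * pt u) + b • ((δ : ℂ) * pt (u + dir r)))).re =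
        δ * ((ro u).1 + b * (x - y)) ∧
      ((1 + I) * (((1 - b : ℝ)) • ((δ : ℂ) * pt u) + b • ((δ : ℂ) * pt (u + dir r)))).im =
        δ * ((ro u).2 + b * (x + y)) := by
    intro x y hd
    rw [hd]
    constructor <;> simp [pt, ro] <;> ring
  have hro : ∀ x y : ℤ, (dir r = (x, y)) → ro (u + dir r) = ((ro u).1 + (x - y), (ro u).2 + (x + y)) := by
    intro x y hd
    rw [hd]
    refine Prod.ext ?_ ?_ <;> simp only [ro, Prod.fst_add, Prod.snd_add] <;> ring
  -- one coordinate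
  have one : ∀ (m w : ℤ) (s : ℤ), (s = 1 ∨ s = -1) → δ * (w : ℝ) ≤ δ * (m + b * s) →
      δ * (m + b * s) ≤ δ * ((w : ℝ) + 1) → (b < 1 → (m = w ∨ m = w + 1)) ∧
        (b = 1 → (m + s = w ∨ m + s = w + 1)) := by
    intro m w s hs g1 g2
    have g3 := le_of_mul_le_mul_left g1 hδ
    have g4 := le_of_mul_le_mul_left g2 hδ
    constructor
    · intro hb1
      rcases hs with rfl | rfl
      · push_cast at g3 g4
        have k1 : (w : ℝ) < ((m + 1 : ℤ) : ℝ) := by push_cast; linarith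
        have k2 : (m : ℝ) ≤ ((w + 1 : ℤ) : ℝ) := by push_cast; linarith
        have k1 := Int.cast_lt.1 k1
        have k2 := Int.cast_le.1 k2
        omega
      · push_cast at g3 g4
        have k1 : (w : ℝ) ≤ ((m : ℤ) : ℝ) := by linarith
        have k2 : (m : ℝ) < ((w + 2 : ℤ) : ℝ) := by push_cast; linarith
        have k1 := Int.cast_le.1 k1
        have k2 := Int.cast_lt.1 k2
        omega
    · intro hb1
      rw [hb1] at g3 g4
      have k1 : (w : ℝ) ≤ ((m + s : ℤ) : ℝ) := by push_cast; linarith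
      have k2 : ((m + s : ℤ) : ℝ) ≤ ((w + 1 : ℤ) : ℝ) := by push_cast; linarith
      have k1 := Int.cast_le.1 k1
      have k2 := Int.cast_le.1 k2
      omega
  have hd : ∃ x y : ℤ, dir r = (x, y) ∧ (x - y = 1 ∨ x - y = -1) ∧ (x + y = 1 ∨ x + y = -1) := by
    rcases dir_cases r with h | h | h | h
    · exact ⟨1, 0, h, by norm_num, by norm_num⟩
    · exact ⟨0, 1, h, by norm_num, by norm_num⟩
    · exact ⟨-1, 0, h, by norm_num, by norm_num⟩
    · exact ⟨0, -1, h, by norm_num, by norm_num⟩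
  obtain ⟨x, y, hxy, hs1, hs2⟩ := hd
  obtain ⟨e1, e2⟩ := key x y hxy
  rw [e1] at h1 h2
  rw [e2] at h3 h4
  have c1 := one (ro u).1 v.1 (x - y) hs1 (by push_cast; exact h1) (by push_cast; exact h2)
  have c2 := one (ro u).2 v.2 (x + y) hs2 (by push_cast; exact h3) (by push_cast; exact h4)
  rcases lt_or_eq_of_le (show b ≤ 1 by linarith) with hb1 | hb1
  · exact Or.inl ⟨c1.1 hb1, c2.1 hb1⟩
  · right
    rw [hro x y hxy]
    exact ⟨c1.2 hb1, c2.2 hb1⟩

end Vale.Agent.P167.H192
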