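import Vale.Agent.P167.Defs
import Vale.Agent.P167.E6.Defs

/-!
# P167, SLE_6, block DICT: the square lattice of `E6` and the squares model of `P167.Defs`

* a vertex `v` of `ℤ²` is the even site `ro v`, a face `f` is the odd site `rf f`;
* an edge `e` is the square `sq e`, a square `q` is the edge `ed q`;
* a medial edge `c = (v, r)` of `E6` is the medial edge `me c` of `P167.Defs`; `next` is `nx`,
  `ahead` is `hdv`, the left vertex is `ls`, the right face is `rs`;
* `cfg O` is the configuration of the squares whose edge is in `O`.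
-/

namespace Vale.Agent.P167.H192

open Vale.Agent.P167.E6 Vale.Agent.P145.FB
open MeasureTheory Relation

/-! ### sites -/

/-- the even site of a vertex -/
def ro (u : ℤ × ℤ) : ℤ × ℤ := (u.1 - u.2, u.1 + u.2)

/-- the odd site of a face -/
def rf (f : ℤ × ℤ) : ℤ × ℤ := (f.1 - f.2, f.1 + f.2 + 1)

/-- the vertex of an even site -/
def ro' (s : ℤ × ℤ) : ℤ × ℤ := ((s.1 + s.2) / 2, (s.2 - s.1) / 2)

/-- the face of an odd site -/
def rf' (s : ℤ × ℤ) : ℤ × ℤ := ((s.1 + s.2 - 1) / 2, (s.2 - s.1 - 1) / 2)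

theorem ro'_ro (u : ℤ × ℤ) : ro' (ro u) = u := by
  ext <;> simp only [ro, ro'] <;> omega

theorem ro_ro' {s : ℤ × ℤ} (h : Even (s.1 + s.2)) : ro (ro' s) = s := by
  rw [Int.even_iff] at h
  ext <;> simp only [ro, ro'] <;> omega

theorem rf'_rf (f : ℤ × ℤ) : rf' (rf f) = f := by
  ext <;> simp only [rf, rf'] <;> omega

theorem rf_rf' {s : ℤ × ℤ} (h : ¬ Even (s.1 + s.2)) : rf (rf' s) = s := by
  rw [Int.even_iff] at h
  ext <;> simp only [rf, rf'] <;> omega

theorem ro_inj {u v : ℤ × ℤ} (h : ro u = ro v) : u = v := by rw [← ro'_ro u, h, ro'_ro]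

theorem rf_inj {u v : ℤ × ℤ} (h : rf u = rf v) : u = v := by rw [← rf'_rf u, h, rf'_rf]

theorem even_ro (u : ℤ × ℤ) : Even ((ro u).1 + (ro u).2) := ⟨u.1, by simp only [ro]; ring⟩

theorem odd_rf (f : ℤ × ℤ) : ¬ Even ((rf f).1 + (rf f).2) := by
  rw [Int.even_iff]; simp only [rf]; omega

/-! ### edges and squares -/

/-- the square of an edge -/
def sq : Sym2 (ℤ × ℤ) → ℤ × ℤ :=
  Sym2.lift ⟨fun u v => (min (ro u).1 (ro v).1, min (ro u).2 (ro v).2), fun u v =>
    Prod.ext (min_comm _ _) (min_comm _ _)⟩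

theorem sq_mk (u v : ℤ × ℤ) : sq s(u, v) = (min (ro u).1 (ro v).1, min (ro u).2 (ro v).2) := rfl

/-- first end of the edge of a square -/
def ea (v : ℤ × ℤ) : ℤ × ℤ := ((v.1 + v.2 + 1) / 2, (v.2 - v.1) / 2)

/-- second end of the edge of a square -/
def eb (v : ℤ × ℤ) : ℤ × ℤ :=
  if Even (v.1 + v.2) then ((v.1 + v.2 + 1) / 2 + 1, (v.2 - v.1) / 2)
  else ((v.1 + v.2 + 1) / 2, (v.2 - v.1) / 2 + 1)

/-- the edge of a square -/
def ed (q : ℤ × ℤ) : Sym2 (ℤ × ℤ) := s(ea q, eb q)

/-- an edge of the lattice -/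
def IsEdge (e : Sym2 (ℤ × ℤ)) : Prop := ∃ v r, e = s(v, v + dir r)

theorem dir_cases (r : Fin 4) : dir r = (1, 0) ∨ dir r = (0, 1) ∨ dir r = (-1, 0) ∨
    dir r = (0, -1) := by
  fin_cases r <;> simp [dir]

theorem isEdge_ed (q : ℤ × ℤ) : IsEdge (ed q) := by
  unfold ed eb ea
  by_cases h : Even (q.1 + q.2)
  · refine ⟨((q.1 + q.2 + 1) / 2, (q.2 - q.1) / 2), 0, ?_⟩
    rw [if_pos h]
    simp [dir]
  · refine ⟨((q.1 + q.2 + 1) / 2, (q.2 - q.1) / 2), 1, ?_⟩
    rw [if_neg h]
    simp [dir]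

theorem sq_ed (q : ℤ × ℤ) : sq (ed q) = q := by
  unfold ed
  rw [sq_mk]
  unfold eb ea ro
  by_cases h : Even (q.1 + q.2)
  · have h' := h
    rw [Int.even_iff] at h'
    simp only [h, if_true]
    ext <;> simp only <;> omega
  · have h' := h
    rw [Int.even_iff] at h'
    simp only [h, if_false]
    ext <;> simp only <;> omega

theorem ed_sq {e : Sym2 (ℤ × ℤ)} (he : IsEdge e) : ed (sq e) = e := by
  obtain ⟨⟨a, b⟩, r, rfl⟩ := he
  rw [sq_mk]
  rcases dir_cases r with h | h | h | h <;> rw [h] <;> unfold ed <;> rw [Sym2.eq_iff]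
  · left
    have e1 : (min (ro (a, b)).1 (ro ((a, b) + (1, 0))).1, min (ro (a, b)).2
        (ro ((a, b) + (1, 0))).2) = (a - b, a + b) := by
      simp only [ro, Prod.mk_add_mk]; ext <;> simp only <;> omega
    have e2 : Even (a - b + (a + b)) := ⟨a, by ring⟩
    rw [e1]
    simp only [ea, eb, e2, if_true, Prod.mk_add_mk]
    constructor <;> ext <;> simp only <;> omega
  · left
    have e1 : (min (ro (a, b)).1 (ro ((a, b) + (0, 1))).1, min (ro (a, b)).2
        (ro ((a, b) + (0, 1))).2) = (a - b - 1, a + b) := by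
      simp only [ro, Prod.mk_add_mk]; ext <;> simp only <;> omega
    have e2 : ¬ Even (a - b - 1 + (a + b)) := by rw [Int.even_iff]; omega
    rw [e1]
    simp only [ea, eb, e2, if_false, Prod.mk_add_mk]
    constructor <;> ext <;> simp only <;> omega
  · right
    have e1 : (min (ro (a, b)).1 (ro ((a, b) + (-1, 0))).1, min (ro (a, b)).2
        (ro ((a, b) + (-1, 0))).2) = (a - 1 - b, a - 1 + b) := by
      simp only [ro, Prod.mk_add_mk]; ext <;> simp only <;> omega
    have e2 : Even (a - 1 - b + (a - 1 + b)) := ⟨a - 1, by ring⟩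
    rw [e1]
    simp only [ea, eb, e2, if_true, Prod.mk_add_mk]
    constructor <;> ext <;> simp only <;> omega
  · right
    have e1 : (min (ro (a, b)).1 (ro ((a, b) + (0, -1))).1, min (ro (a, b)).2
        (ro ((a, b) + (0, -1))).2) = (a - b, a + b - 1) := by
      simp only [ro, Prod.mk_add_mk]; ext <;> simp only <;> omega
    have e2 : ¬ Even (a - b + (a + b - 1)) := by rw [Int.even_iff]; omega
    rw [e1]
    simp only [ea, eb, e2, if_false, Prod.mk_add_mk]
    constructor <;> ext <;> simp only <;> omega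

theorem sq_inj {e e' : Sym2 (ℤ × ℤ)} (he : IsEdge e) (he' : IsEdge e') (h : sq e = sq e') :
    e = e' := by rw [← ed_sq he, h, ed_sq he']

theorem ed_inj {q q' : ℤ × ℤ} (h : ed q = ed q') : q = q' := by rw [← sq_ed q, h, sq_ed]

/-! ### medial edges -/

/-- the medial edge -/
def me (c : Medial) : Ed :=
  if c.2 = 0 then Sum.inl ((ro c.1).1 - 1, (ro c.1).2)
  else if c.2 = 1 then Sum.inr ((ro c.1).1 - 1, (ro c.1).2 - 1)
  else if c.2 = 2 then Sum.inl ((ro c.1).1 - 1, (ro c.1).2 - 1)
  else Sum.inr ((ro c.1).1, (ro c.1).2 - 1)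

theorem fin4_cases (r : Fin 4) : r = 0 ∨ r = 1 ∨ r = 2 ∨ r = 3 := by
  fin_cases r <;> simp

theorem par0 (v : ℤ × ℤ) : ¬ Even ((v.1 - v.2 - 1) + (v.1 + v.2)) := by
  rw [Int.even_iff]; omega

theorem par1 (v : ℤ × ℤ) : Even ((v.1 - v.2 - 1) + (v.1 + v.2 - 1)) := by
  rw [Int.even_iff]; omega

theorem par3 (v : ℤ × ℤ) : ¬ Even ((v.1 - v.2) + (v.1 + v.2 - 1)) := by
  rw [Int.even_iff]; omega

theorem me0 (v : ℤ × ℤ) : me (v, 0) = Sum.inl (v.1 - v.2 - 1, v.1 + v.2) := rfl
theorem me1 (v : ℤ × ℤ) : me (v, 1) = Sum.inr (v.1 - v.2 - 1, v.1 + v.2 - 1) := rfl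
theorem me2 (v : ℤ × ℤ) : me (v, 2) = Sum.inl (v.1 - v.2 - 1, v.1 + v.2 - 1) := rfl
theorem me3 (v : ℤ × ℤ) : me (v, 3) = Sum.inr (v.1 - v.2, v.1 + v.2 - 1) := rfl

/-- the vertex on the left -/
theorem ls_me (c : Medial) : ls (me c) = ro c.1 := by
  obtain ⟨v, r⟩ := c
  rcases fin4_cases r with rfl | rfl | rfl | rfl
  · rw [me0]; simp only [ls, if_neg (par0 v), ro]; ext <;> simp
  · rw [me1]; simp only [ls, if_pos (par1 v), ro]; ext <;> simp
  · rw [me2]; simp only [ls, if_pos (par1 v), ro]; ext <;> simp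
  · rw [me3]; simp only [ls, if_neg (par3 v), ro]; ext <;> simp

/-- the face on the right -/
theorem rs_me (c : Medial) : rs (me c) = rf (face c.1 c.2) := by
  obtain ⟨v, r⟩ := c
  rcases fin4_cases r with rfl | rfl | rfl | rfl
  · rw [me0]; simp only [rs, if_neg (par0 v), rf, face]
    ext <;> simp
  · rw [me1]; simp only [rs, if_pos (par1 v), rf, face]
    ext <;> simp <;> ring
  · rw [me2]; simp only [rs, if_pos (par1 v), rf, face]
    ext <;> simp <;> ring
  · rw [me3]; simp only [rs, if_neg (par3 v), rf, face]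
    ext <;> simp <;> ring

/-- the edge ahead -/
theorem hdv_me (c : Medial) : hdv (me c) = sq (ahead c) := by
  obtain ⟨v, r⟩ := c
  unfold ahead
  rw [sq_mk]
  rcases fin4_cases r with rfl | rfl | rfl | rfl
  · rw [me0]; simp only [hdv, if_neg (par0 v), ro, dir]
    ext <;> simp <;> omega
  · rw [me1]; simp only [hdv, if_pos (par1 v), ro, dir]
    ext <;> simp <;> omega
  · rw [me2]; simp only [hdv, if_pos (par1 v), ro, dir]
    ext <;> simp <;> omega
  · rw [me3]; simp only [hdv, if_neg (par3 v), ro, dir]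
    ext <;> simp <;> omega

theorem isEdge_ahead (c : Medial) : IsEdge (ahead c) := ⟨c.1, c.2 + 1, rfl⟩

theorem ed_hdv_me (c : Medial) : ed (hdv (me c)) = ahead c := by
  rw [hdv_me, ed_sq (isEdge_ahead c)]

open Classical in
/-- the configuration of the squares -/
noncomputable def cfg (O : Set (Sym2 (ℤ × ℤ))) : Cfg := fun q => decide (ed q ∈ O)

theorem cfg_true {O : Set (Sym2 (ℤ × ℤ))} {q : ℤ × ℤ} : cfg O q = true ↔ ed q ∈ O := by
  classical
  simp [cfg]

theorem mem_op_cfg {O : Set (Sym2 (ℤ × ℤ))} {q : ℤ × ℤ} : q ∈ op (cfg O) ↔ ed q ∈ O := cfg_true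

theorem cfg_hdv {O : Set (Sym2 (ℤ × ℤ))} (c : Medial) :
    cfg O (hdv (me c)) = true ↔ ahead c ∈ O := by rw [cfg_true, ed_hdv_me]

theorem me_open (v : ℤ × ℤ) (r : Fin 4) (ω : Cfg) (h : ω (hdv (me (v, r))) = true) :
    nx ω (me (v, r)) = me (v + dir (r + 1), r - 1) := by
  rcases fin4_cases r with rfl | rfl | rfl | rfl
  · rw [me0] at h ⊢
    simp only [hdv, if_neg (par0 v)] at h
    simp only [nx, if_neg (par0 v), h, if_true]
    show _ = me (v + dir 1, 3)
    rw [me3]
    simp only [dir]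
    congr 1
    ext <;> simp <;> ring
  · rw [me1] at h ⊢
    simp only [hdv, if_pos (par1 v)] at h
    simp only [nx, if_pos (par1 v), h, if_true]
    show _ = me (v + dir 2, 0)
    rw [me0]
    simp only [dir]
    congr 1
    ext <;> simp <;> ring
  · rw [me2] at h ⊢
    simp only [hdv, if_pos (par1 v)] at h
    simp only [nx, if_pos (par1 v), h, if_true]
    show _ = me (v + dir 3, 1)
    rw [me1]
    simp only [dir]
    congr 1
    ext <;> simp <;> ring
  · rw [me3] at h ⊢
    simp only [hdv, if_neg (par3 v)] at h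
    simp only [nx, if_neg (par3 v), h, if_true]
    show _ = me (v + dir 0, 2)
    rw [me2]
    simp only [dir]
    congr 1
    ext <;> simp <;> ring

theorem me_closed (v : ℤ × ℤ) (r : Fin 4) (ω : Cfg) (h : ω (hdv (me (v, r))) = false) :
    nx ω (me (v, r)) = me (v, r + 1) := by
  rcases fin4_cases r with rfl | rfl | rfl | rfl
  · rw [me0] at h ⊢
    simp only [hdv, if_neg (par0 v)] at h
    simp only [nx, if_neg (par0 v), h, Bool.false_eq_true, if_false]
    show _ = me (v, 1)
    rw [me1]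
  · rw [me1] at h ⊢
    simp only [hdv, if_pos (par1 v)] at h
    simp only [nx, if_pos (par1 v), h, Bool.false_eq_true, if_false]
    show _ = me (v, 2)
    rw [me2]
  · rw [me2] at h ⊢
    simp only [hdv, if_pos (par1 v)] at h
    simp only [nx, if_pos (par1 v), h, Bool.false_eq_true, if_false]
    show _ = me (v, 3)
    rw [me3]
    congr 1
    ext <;> simp
  · rw [me3] at h ⊢
    simp only [hdv, if_neg (par3 v)] at h
    simp only [nx, if_neg (par3 v), h, Bool.false_eq_true, if_false]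
    show _ = me (v, 0)
    rw [me0]
    congr 1
    ext <;> simp

/-- **the rule of the interface** -/
theorem nx_me {O : Set (Sym2 (ℤ × ℤ))} {ω : Cfg} (c : Medial)
    (h : ω (hdv (me c)) = true ↔ ahead c ∈ O) : nx ω (me c) = me (next O c) := by
  unfold next
  by_cases h1 : ahead c ∈ O
  · rw [if_pos h1]
    exact me_open c.1 c.2 ω (h.2 h1)
  · rw [if_neg h1]
    refine me_closed c.1 c.2 ω ?_
    rw [← Bool.not_eq_true, h]
    exact h1

theorem nx_cfg (O : Set (Sym2 (ℤ × ℤ))) (c : Medial) : nx (cfg O) (me c) = me (next O c) :=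
  nx_me c (cfg_hdv c)

theorem nx_cfg_iterate (O : Set (Sym2 (ℤ × ℤ))) (c : Medial) (j : ℕ) :
    (nx (cfg O))^[j] (me c) = me ((next O)^[j] c) := by
  induction j with
  | zero => rfl
  | succ j ih => rw [Function.iterate_succ_apply', Function.iterate_succ_apply', ih, nx_cfg]

/-- the inverse of `me` -/
def me' : Ed → Medial
  | Sum.inl v =>
    if Even (v.1 + v.2) then (ro' (v.1 + 1, v.2 + 1), 2) else (ro' (v.1 + 1, v.2), 0)
  | Sum.inr v =>
    if Even (v.1 + v.2) then (ro' (v.1 + 1, v.2 + 1), 1) else (ro' (v.1, v.2 + 1), 3)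

theorem me'_me (c : Medial) : me' (me c) = c := by
  obtain ⟨v, r⟩ := c
  rcases fin4_cases r with rfl | rfl | rfl | rfl
  · rw [me0]; simp only [me', if_neg (par0 v), ro']
    ext <;> simp <;> omega
  · rw [me1]; simp only [me', if_pos (par1 v), ro']
    ext <;> simp <;> omega
  · rw [me2]; simp only [me', if_pos (par1 v), ro']
    ext <;> simp <;> omega
  · rw [me3]; simp only [me', if_neg (par3 v), ro']
    ext <;> simp <;> omega

theorem me_me' (e : Ed) : me (me' e) = e := by
  rcases e with v | v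
  · by_cases h : Even (v.1 + v.2)
    · simp only [me', if_pos h]
      rw [me2]
      rw [Int.even_iff] at h
      simp only [ro']
      congr 1
      ext <;> simp only <;> omega
    · simp only [me', if_neg h]
      rw [me0]
      rw [Int.even_iff] at h
      simp only [ro']
      congr 1
      ext <;> simp only <;> omega
  · by_cases h : Even (v.1 + v.2)
    · simp only [me', if_pos h]
      rw [me1]
      rw [Int.even_iff] at h
      simp only [ro']
      congr 1
      ext <;> simp only <;> omega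
    · simp only [me', if_neg h]
      rw [me3]
      rw [Int.even_iff] at h
      simp only [ro']
      congr 1
      ext <;> simp only <;> omega

/-- medial edges -/
def meE : Medial ≃ Ed := ⟨me, me', me'_me, me_me'⟩

theorem me_inj {c c' : Medial} (h : me c = me c') : c = c' := meE.injective h

end Vale.Agent.P167.H192
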